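import Vale.Agent.P359.Moment.Tab.Resid

/-!
Putting the five tabled parts of a class together.
-/

namespace Vale.Agent.P359.Moment.Tab

/-- Tables of the five parts with their denominators. -/
structure Parts where
  /-- Denominators of the parts. -/
  den : ℕ × ℕ × ℕ × ℕ × ℕ
  /-- Factors bringing them to the common one. -/
  fac : ℕ × ℕ × ℕ × ℕ × ℕ
  /-- The target. -/
  t0 : List (List ℤ)
  /-- The Gram blocks. -/
  t1 : List (List ℤ)
  /-- Pairs and particles. -/
  t2 : List (List ℤ)
  /-- Four particles. -/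
  t3 : List (List ℤ)
  /-- Vanishing channels. -/
  t4 : List (List ℤ)

/-- The factors fit the common denominator. -/
def Parts.facOk (P : Parts) (D : ℕ) : Bool :=
  decide (D ≠ 0) && decide (P.fac.1 * P.den.1 = D) && decide (P.fac.2.1 * P.den.2.1 = D) &&
    decide (P.fac.2.2.1 * P.den.2.2.1 = D) && decide (P.fac.2.2.2.1 * P.den.2.2.2.1 = D) &&
      decide (P.fac.2.2.2.2 * P.den.2.2.2.2 = D)

/-- The table over the common denominator. -/
noncomputable def Parts.total (P : Parts) : List (List ℤ) :=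
  madd (madd (madd (madd (mscale P.fac.1 P.t0) (mscale P.fac.2.1 P.t1))
    (mscale P.fac.2.2.1 P.t2)) (mscale P.fac.2.2.2.1 P.t3)) (mscale P.fac.2.2.2.2 P.t4)

theorem Parts.fact {keys srcs : List St} {L0 L1 L2 L3 L4 : Lin ℚ} (P : Parts) {D : ℕ}
    (h : P.facOk D = true) (h0 : Fact keys srcs L0 P.den.1 P.t0)
    (h1 : Fact keys srcs L1 P.den.2.1 P.t1) (h2 : Fact keys srcs L2 P.den.2.2.1 P.t2)
    (h3 : Fact keys srcs L3 P.den.2.2.2.1 P.t3) (h4 : Fact keys srcs L4 P.den.2.2.2.2 P.t4) :
    Fact keys srcs (L0 ++ L1 ++ L2 ++ L3 ++ L4) D P.total := by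
  simp only [Parts.facOk, Bool.and_eq_true, decide_eq_true_eq] at h
  obtain ⟨⟨⟨⟨⟨hD, e0⟩, e1⟩, e2⟩, e3⟩, e4⟩ := h
  have one : ∀ A, ∀ i j, ent (mscale ((1 : ℕ) : ℤ) A) i j = ent A i j := fun A i j => by
    simp [ent_mscale]
  have a := h0.append h1 e0 e1 hD
  have b := a.append h2 (Nat.one_mul D) e2 hD
  have c := b.append h3 (Nat.one_mul D) e3 hD
  have d := c.append h4 (Nat.one_mul D) e4 hD
  refine ⟨d.1, fun i j hi hj => (d.2 i j hi hj).trans ?_⟩
  simp only [Parts.total, ent_madd, one]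

/-- A zero table. -/
def zeroT (N : ℕ) : List (List ℤ) := List.replicate N (List.replicate N 0)

/-- The positions, lengths and kinds of a class. -/
noncomputable def shapeTest (t : Ix) (depth : ℕ) (keys srcs : List St) : Bool :=
  decide (keys ++ srcs).Nodup && t.ok (keys ++ srcs) &&
    decide ((keys ++ srcs).length ≤ 2 ^ depth) &&
      srcs.all fun s => match s with | .win _ _ _ => true | _ => false

/-- Five checked tables, the expansions and the final test settle a class. -/
theorem classGoal_of_parts {keys srcs : List St} (t : Ix) (depth : ℕ) (data : Data)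
    (Z : ℕ → Comb ℚ) (c D : ℕ) (P : Parts) (T : List (List ℤ)) (dw : List ℤ) (B : List (List ℤ))
    (hZ : ∀ n ∈ ySet, Z n = z2 (parAt (0 : ℚ)).eps n)
    (hy : ∀ n ∈ ySet, ∀ q ∈ Z n, cls (q.2, q.2) = 2 * (n + 2) + 2)
    (hs : shapeTest t depth keys srcs = true) (hf : P.facOk D = true)
    (h0 : tabOk P.den.1 t depth keys.length (keys ++ srcs).length (targetPart c Z) P.t0 = true)
    (h1 : tabOk P.den.2.1 t depth keys.length (keys ++ srcs).length (blocksPart c data) P.t1 = true)
    (h2 : tabOk P.den.2.2.1 t depth keys.length (keys ++ srcs).length (g3Part c data) P.t2 = true)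
    (h3 : tabOk P.den.2.2.2.1 t depth keys.length (keys ++ srcs).length (g4Part c data) P.t3 = true)
    (h4 : tabOk P.den.2.2.2.2 t depth keys.length (keys ++ srcs).length (nullPart c data) P.t4 = true)
    (hT : combOk t depth keys.length (keys ++ srcs).length (expand (0 : ℚ)) srcs T = true)
    (hpd : pdTest keys.length srcs.length dw B D P.total T = true) : ClassGoal data c := by
  simp only [shapeTest, Bool.and_eq_true, decide_eq_true_eq] at hs
  obtain ⟨⟨⟨hnd, hix⟩, hd⟩, hw⟩ := hs
  have hf' := hf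
  simp only [Parts.facOk, Bool.and_eq_true, decide_eq_true_eq] at hf'
  obtain ⟨⟨⟨⟨⟨hD, e0⟩, e1⟩, e2⟩, e3⟩, e4⟩ := hf'
  have nz : ∀ {e m : ℕ}, e * m = D → m ≠ 0 := fun h z => hD (by rw [← h, z, Nat.mul_zero])
  have hA := P.fact hf (fact_of_tabOk hnd hix (nz e0) hd h0) (fact_of_tabOk hnd hix (nz e1) hd h1)
    (fact_of_tabOk hnd hix (nz e2) hd h2) (fact_of_tabOk hnd hix (nz e3) hd h3)
    (fact_of_tabOk hnd hix (nz e4) hd h4)
  rw [← part_residual_parts c Z data hZ hy] at hA
  exact classGoal t depth data c D P.total T dw B hw hnd hix hd hD hA hT hpd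

end Vale.Agent.P359.Moment.Tab
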