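import Vale.Agent.P359.Moment.Eval

/-!
Integer programs for the class tables, written with recursors so that the kernel runs them cheaply.

A term `(q, (s, t))` becomes `(q D, i, j)` with `i`, `j` the positions of `s`, `t`; the position is
found in a search tree whose leaves carry their monomial, so the tree needs no trusted code.
-/

namespace Vale.Agent.P359.Moment.Tab

/-- Equality of two words. -/
noncomputable def lbeq (l : List ℕ) : List ℕ → Bool :=
  List.rec (motive := fun _ => List ℕ → Bool)
    (fun b => List.rec (motive := fun _ => Bool) true (fun _ _ _ => false) b)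
    (fun a _ ih b => List.rec (motive := fun _ => Bool) false
      (fun c m _ => cond (Nat.beq a c) (ih m) false) b) l

theorem lbeq_eq : ∀ {a b : List ℕ}, lbeq a b = true → a = b := by
  intro a
  induction a with
  | nil =>
    intro b h
    cases b with
    | nil => rfl
    | cons c m => simp [lbeq] at h
  | cons x a ih =>
    intro b h
    cases b with
    | nil => simp [lbeq] at h
    | cons c m =>
      change cond (Nat.beq x c) (lbeq a m) false = true at h
      cases hx : Nat.beq x c with
      | false => simp [hx] at h
      | true =>
        rw [hx, cond_true] at h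
        rw [Nat.eq_of_beq_eq_true hx, ih h]

/-- Equality of two monomials. -/
noncomputable def stBeq : St → St → Bool
  | .bh k, .bh l => Nat.beq k l
  | .one k a, .one l b => Nat.beq k l && Nat.beq a b
  | .win k a b, .win l c d => Nat.beq k l && Nat.beq a c && Nat.beq b d
  | .word l, .word m => lbeq l m
  | _, _ => false

theorem stBeq_eq {s t : St} (h : stBeq s t = true) : s = t := by
  cases s <;> cases t <;> simp [stBeq] at h <;>
    first
    | exact congrArg _ (lbeq_eq h)
    | (obtain ⟨⟨rfl, rfl⟩, rfl⟩ := h; rfl)
    | (obtain ⟨rfl, rfl⟩ := h; rfl)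
    | (subst h; rfl)

/-- A key of a monomial for the search. -/
noncomputable def key : St → ℕ
  | .bh k => Nat.mul 4 k
  | .one k a => Nat.add (Nat.mul 4 (Nat.add (Nat.mul 64 k) a)) 1
  | .win k a b => Nat.add (Nat.mul 4 (Nat.add (Nat.mul 64 (Nat.add (Nat.mul 64 k) a)) b)) 2
  | .word l => Nat.add (Nat.mul 4
      (List.rec (motive := fun _ => ℕ) 0 (fun a _ r => Nat.add (Nat.mul 64 r) a) l)) 3

/-- A search tree of monomials with their positions. -/
inductive Ix : Type
  | leaf (i : ℕ) (s : St)
  | node (piv : ℕ) (l r : Ix)

/-- The position of a monomial with key `k`, or `bad`. -/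
noncomputable def Ix.find (t : Ix) (bad k : ℕ) (s : St) : ℕ :=
  Ix.rec (motive := fun _ => ℕ) (fun i x => cond (stBeq s x) i bad)
    (fun piv _ _ a b => cond (Nat.blt k piv) a b) t

/-- The leaves carry the listed monomials. -/
def Ix.ok (all : List St) : Ix → Bool
  | .leaf i x => decide (all[i]? = some x)
  | .node _ l r => l.ok all && r.ok all

theorem Ix.find_spec {all : List St} {bad k : ℕ} {s : St} : ∀ {t : Ix}, t.ok all = true →
    t.find bad k s = bad ∨ all[t.find bad k s]? = some s := by
  intro t
  induction t with
  | leaf i x =>
    intro h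
    change cond (stBeq s x) i bad = bad ∨ all[cond (stBeq s x) i bad]? = some s
    cases hx : stBeq s x with
    | false => exact Or.inl rfl
    | true =>
      rw [cond_true, stBeq_eq hx]
      exact Or.inr (by simpa [Ix.ok] using h)
  | node piv l r ihl ihr =>
    intro h
    simp only [Ix.ok, Bool.and_eq_true] at h
    change cond (Nat.blt k piv) (l.find bad k s) (r.find bad k s) = bad ∨
      all[cond (Nat.blt k piv) (l.find bad k s) (r.find bad k s)]? = some s
    cases Nat.blt k piv
    · exact ihr h.2
    · exact ihl h.1

/-- The position of a monomial among `N` listed ones, or `N`. -/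
noncomputable def pos (t : Ix) (N : ℕ) (s : St) : ℕ := t.find N (key s) s

theorem pos_spec {all : List St} {t : Ix} (h : t.ok all = true) {N : ℕ} {s : St}
    (hlt : pos t N s < N) : all[pos t N s]? = some s :=
  (Ix.find_spec h).resolve_left hlt.ne

/-- Equality of two truth values. -/
def sameB (a b : Bool) : Bool := cond a b (!b)

/-- A term can be tabled: it joins two kept or two expanded monomials, with denominator dividing `D`. -/
noncomputable def encOk (D : ℕ) (t : Ix) (n N : ℕ) (p : ℚ × (St × St)) : Bool :=
  Nat.blt (pos t N p.2.1) N && Nat.blt (pos t N p.2.2) N &&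
    sameB (Nat.blt (pos t N p.2.1) n) (Nat.blt (pos t N p.2.2) n) &&
    Nat.beq (Nat.mod D p.1.den) 0

/-- A term as an integer and two positions. -/
noncomputable def encVal (D : ℕ) (t : Ix) (N : ℕ) (p : ℚ × (St × St)) : ℤ × ℕ × ℕ :=
  (p.1.num * (Int.ofNat (Nat.div D p.1.den)), pos t N p.2.1, pos t N p.2.2)

/-- `List.all` by the recursor. -/
noncomputable def rall {α : Type*} (f : α → Bool) (l : List α) : Bool :=
  List.rec (motive := fun _ => Bool) true (fun a _ r => cond (f a) r false) l

theorem rall_iff {α : Type*} {f : α → Bool} {l : List α} :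
    rall f l = true ↔ ∀ x ∈ l, f x = true := by
  induction l with
  | nil => simp [rall]
  | cons a l ih =>
    change cond (f a) (rall f l) false = true ↔ _
    cases ha : f a <;> simp [ha, ih]

/-- `List.map` by the recursor. -/
noncomputable def rmap {α β : Type*} (f : α → β) (l : List α) : List β :=
  List.rec (motive := fun _ => List β) [] (fun a _ r => f a :: r) l

theorem rmap_eq {α β : Type*} (f : α → β) (l : List α) : rmap f l = l.map f := by
  induction l with
  | nil => rfl
  | cons a l ih => exact congrArg (f a :: ·) ih

/-- Sum of integers. -/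
noncomputable def isum (l : List ℤ) : ℤ :=
  List.rec (motive := fun _ => ℤ) 0 (fun a _ r => a + r) l

theorem isum_eq (l : List ℤ) : isum l = l.sum := by
  induction l with
  | nil => rfl
  | cons a l ih =>
    change a + isum l = _
    rw [ih, List.sum_cons]

/-- Sort into `2 ^ d` buckets by a key in `[lo, lo + 2 ^ d)`. -/
noncomputable def bucket {α : Type*} (f : α → ℕ) (d : ℕ) : ℕ → List α → List (List α) :=
  Nat.rec (motive := fun _ => ℕ → List α → List (List α))
    (fun lo L => [rfilter (fun x => Nat.beq (f x) lo) L])
    (fun d ih lo L => ih lo (rfilter (fun x => Nat.blt (f x) (lo + 2 ^ d)) L) ++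
      ih (lo + 2 ^ d) (rfilter (fun x => Nat.ble (lo + 2 ^ d) (f x)) L)) d

theorem bucket_eq {α : Type*} (f : α → ℕ) : ∀ (d lo : ℕ) (L : List α),
    bucket f d lo L = (List.range (2 ^ d)).map fun r => L.filter fun x => decide (f x = lo + r) := by
  intro d
  induction d with
  | zero =>
    intro lo L
    change [rfilter (fun x => Nat.beq (f x) lo) L] = _
    simp only [rfilter_eq, pow_zero, List.range_one, List.map_cons, List.map_nil, Nat.add_zero]
    congr 2
    funext x
    rw [Bool.eq_iff_iff, decide_eq_true_iff]
    exact ⟨Nat.eq_of_beq_eq_true, fun h => h ▸ Nat.beq_refl (f x)⟩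
  | succ d ih =>
    intro lo L
    change bucket f d lo _ ++ bucket f d (lo + 2 ^ d) _ = _
    rw [ih, ih, rfilter_eq, rfilter_eq, pow_succ, mul_two, List.range_add, List.map_append,
      List.map_map]
    congr 1
    · refine List.map_congr_left fun r hr => ?_
      rw [List.filter_filter]
      refine List.filter_congr fun x _ => ?_
      have := List.mem_range.1 hr
      by_cases e : f x = lo + r <;> simp [e]
      omega
    · refine List.map_congr_left fun r _ => ?_
      rw [List.filter_filter]
      refine List.filter_congr fun x _ => ?_
      by_cases e : f x = lo + 2 ^ d + r <;> simp [e, Nat.add_assoc]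
      omega

/-- The table of `N × N` sums of encoded terms. -/
noncomputable def tabOf (d N : ℕ) (T : List (ℤ × ℕ × ℕ)) : List (List ℤ) :=
  rmap (fun row => rmap (fun cell => isum (rmap Prod.fst cell))
      (List.take N (bucket (fun x => x.2.2) d 0 row)))
    (List.take N (bucket (fun x => x.2.1) d 0 T))

/-- An entry of an integer table. -/
def ent (M : List (List ℤ)) (i j : ℕ) : ℤ := (M.getD i []).getD j 0

theorem ent_tabOf {d N i j : ℕ} (hN : N ≤ 2 ^ d) (hi : i < N) (hj : j < N)
    (T : List (ℤ × ℕ × ℕ)) : ent (tabOf d N T) i j =
      ((T.filter fun x => decide (x.2.1 = i ∧ x.2.2 = j)).map Prod.fst).sum := by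
  have h1 : i < 2 ^ d := by omega
  have h2 : j < 2 ^ d := by omega
  simp only [ent, tabOf, rmap_eq, isum_eq, bucket_eq, List.getD_eq_getElem?_getD,
    List.getElem?_map, List.getElem?_take, if_pos hi, if_pos hj, Option.map_some,
    List.getElem?_range h1, List.getElem?_range h2, Option.getD_some, Nat.zero_add,
    List.filter_filter]
  congr 2
  refine List.filter_congr fun x _ => ?_
  rw [Bool.eq_iff_iff]
  simp [and_comm]

/-- One part of a class is tabled: every term fits, and the sums are the given table. -/
noncomputable def tabOk (D : ℕ) (t : Ix) (d n N : ℕ) (L : List (ℚ × (St × St)))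
    (tbl : List (List ℤ)) : Bool :=
  rall (encOk D t n N) L && decide (tabOf d N (rmap (encVal D t N) L) = tbl)

/-- Entrywise sum of two rows, padded by zeros. -/
noncomputable def zadd (a : List ℤ) : List ℤ → List ℤ :=
  List.rec (motive := fun _ => List ℤ → List ℤ) (fun b => b)
    (fun x l ih b => List.rec (motive := fun _ => List ℤ) (x :: l)
      (fun y m _ => (x + y) :: ih m) b) a

theorem getD_zadd : ∀ (a b : List ℤ) (j : ℕ), (zadd a b).getD j 0 = a.getD j 0 + b.getD j 0 := by
  intro a
  induction a with
  | nil => intro b j; simp [zadd]
  | cons x l ih =>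
    intro b j
    cases b with
    | nil => simp [zadd]
    | cons y m =>
      change ((x + y) :: zadd l m).getD j 0 = _
      cases j with
      | zero => simp
      | succ j => simpa using ih m j

/-- Entrywise sum of two tables, padded by zeros. -/
noncomputable def madd (A : List (List ℤ)) : List (List ℤ) → List (List ℤ) :=
  List.rec (motive := fun _ => List (List ℤ) → List (List ℤ)) (fun B => B)
    (fun x l ih B => List.rec (motive := fun _ => List (List ℤ)) (x :: l)
      (fun y m _ => zadd x y :: ih m) B) A

theorem ent_madd : ∀ (A B : List (List ℤ)) (i j : ℕ),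
    ent (madd A B) i j = ent A i j + ent B i j := by
  intro A
  induction A with
  | nil => intro B i j; simp [madd, ent]
  | cons x l ih =>
    intro B i j
    cases B with
    | nil => simp [madd, ent]
    | cons y m =>
      change ent (zadd x y :: madd l m) i j = _
      cases i with
      | zero => simpa [ent] using getD_zadd x y j
      | succ i => simpa [ent] using ih m i j

/-- A multiple of a table. -/
noncomputable def mscale (c : ℤ) (A : List (List ℤ)) : List (List ℤ) :=
  rmap (rmap fun x => c * x) A

theorem ent_mscale (c : ℤ) (A : List (List ℤ)) (i j : ℕ) :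
    ent (mscale c A) i j = c * ent A i j := by
  simp only [ent, mscale, rmap_eq, List.getD_eq_getElem?_getD, List.getElem?_map]
  cases A[i]? with
  | none => simp
  | some r =>
    simp only [Option.map_some, Option.getD_some, rmap_eq, List.getElem?_map]
    cases r[j]? <;> simp

/-- The combination of rows with the weights `w`. -/
noncomputable def lcomb (w : List ℤ) : List (List ℤ) → List ℤ :=
  List.rec (motive := fun _ => List (List ℤ) → List ℤ) (fun _ => [])
    (fun x _ ih T => List.rec (motive := fun _ => List ℤ) []
      (fun R rest _ => zadd (rmap (fun y => x * y) R) (ih rest)) T) w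

theorem getD_lcomb : ∀ (w : List ℤ) (T : List (List ℤ)) (m j : ℕ), w.length ≤ m →
    (lcomb w T).getD j 0 = ∑ q ∈ Finset.range m, w.getD q 0 * ent T q j := by
  intro w
  induction w with
  | nil => intro T m j _; simp [lcomb]
  | cons x l ih =>
    intro T m j hm
    cases T with
    | nil => simp [lcomb, ent]
    | cons R rest =>
      obtain ⟨m, rfl⟩ : ∃ m', m = m' + 1 := ⟨m - 1, by simp at hm; omega⟩
      change (zadd (rmap (fun y => x * y) R) (lcomb l rest)).getD j 0 = _
      rw [getD_zadd, ih rest m j (by simpa using hm), Finset.sum_range_succ']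
      simp only [ent, List.getD_cons_succ, List.getD_cons_zero, rmap_eq]
      rw [add_comm]
      congr 1
      simp only [List.getD_eq_getElem?_getD, List.getElem?_map]
      cases R[j]? <;> simp

/-- The product of two tables. -/
noncomputable def mmul (W T : List (List ℤ)) : List (List ℤ) := rmap (fun w => lcomb w T) W

theorem ent_mmul (W T : List (List ℤ)) (i j m : ℕ) (hm : ∀ w ∈ W, w.length ≤ m) :
    ent (mmul W T) i j = ∑ q ∈ Finset.range m, ent W i q * ent T q j := by
  simp only [ent, mmul, rmap_eq, List.getD_eq_getElem?_getD, List.getElem?_map]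
  cases hw : W[i]? with
  | none => simp
  | some w =>
    have := getD_lcomb w T m j (hm w (List.mem_of_getElem? hw))
    simpa [ent, List.getD_eq_getElem?_getD] using this

/-- A column in front of a table. -/
noncomputable def consCol (row : List ℤ) : List (List ℤ) → List (List ℤ) :=
  List.rec (motive := fun _ => List (List ℤ) → List (List ℤ))
    (fun A => rmap (fun r => (0 : ℤ) :: r) A)
    (fun x _ ih A => List.rec (motive := fun _ => List (List ℤ)) ([x] :: ih [])
      (fun r rest _ => (x :: r) :: ih rest) A) row

theorem ent_consCol : ∀ (row : List ℤ) (A : List (List ℤ)) (i : ℕ),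
    ent (consCol row A) i 0 = row.getD i 0 ∧
      ∀ j, ent (consCol row A) i (j + 1) = ent A i j := by
  intro row
  induction row with
  | nil =>
    intro A i
    simp only [consCol, ent, rmap_eq, List.getD_eq_getElem?_getD, List.getElem?_map]
    cases A[i]? <;> simp
  | cons x l ih =>
    intro A i
    cases A with
    | nil =>
      change ent ([x] :: consCol l []) i 0 = _ ∧ ∀ j, ent ([x] :: consCol l []) i (j + 1) = _
      cases i with
      | zero => simp [ent]
      | succ i => simpa [ent] using ih [] i
    | cons r rest =>
      change ent ((x :: r) :: consCol l rest) i 0 = _ ∧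
        ∀ j, ent ((x :: r) :: consCol l rest) i (j + 1) = _
      cases i with
      | zero => simp [ent]
      | succ i => simpa [ent] using ih rest i

/-- The transposed table. -/
noncomputable def transp (A : List (List ℤ)) : List (List ℤ) :=
  List.rec (motive := fun _ => List (List ℤ)) [] (fun row _ r => consCol row r) A

theorem ent_transp : ∀ (A : List (List ℤ)) (i j : ℕ), ent (transp A) i j = ent A j i := by
  intro A
  induction A with
  | nil => intro i j; simp [transp, ent]
  | cons row l ih =>
    intro i j
    change ent (consCol row (transp l)) i j = _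
    cases j with
    | zero => rw [(ent_consCol row _ i).1]; simp [ent]
    | succ j => rw [(ent_consCol row _ i).2 j, ih]; simp [ent]

/-- Dot product of integer rows. -/
noncomputable def dotR (a : List ℤ) : List ℤ → ℤ :=
  List.rec (motive := fun _ => List ℤ → ℤ) (fun _ => 0)
    (fun x _ ih b => List.rec (motive := fun _ => ℤ) 0
      (fun y m _ => Int.add (Int.mul x y) (ih m)) b) a

theorem dotR_eq : ∀ (a b : List ℤ), dotR a b = Psd.dot a b := by
  intro a
  induction a with
  | nil => intro b; simp [dotR, Psd.dot]
  | cons x l ih =>
    intro b
    cases b with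
    | nil => rfl
    | cons y m =>
      change Int.add (Int.mul x y) (dotR l m) = _
      rw [ih m, Psd.dot]
      rfl

end Vale.Agent.P359.Moment.Tab
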