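import Vale.Agent.P359.Moment.Tab.Sound

/-!
The five parts of one class of the residual, visiting only the generators that can reach it, with
the programs at `eps = 0` in a form the kernel runs cheaply.
-/

namespace Vale.Agent.P359.Moment.Tab

/-- The kind and weight of a monomial. -/
noncomputable def stCls : St → ℕ
  | .bh _ => 0
  | .one k a => Nat.add (Nat.mul 2 (Nat.add k a)) 1
  | .win k a b => Nat.add (Nat.mul 2 (Nat.add (Nat.add (Nat.add k a) b) 1)) 2
  | .word l => Nat.add (Nat.mul 2 (List.rec (motive := fun _ => ℕ) 0 (fun a _ r => Nat.add a r) l)) 2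

theorem rec_sum (l : List ℕ) :
    List.rec (motive := fun _ => ℕ) 0 (fun a _ r => Nat.add a r) l = l.sum := by
  induction l with
  | nil => rfl
  | cons a l ih => rw [List.sum_cons]; exact congrArg (a + ·) ih

theorem stCls_eq (p : St × St) : stCls p.1 = cls p := by
  rcases p with ⟨s | s | s | l, t⟩
  all_goals first | rfl | (simp only [stCls, cls, rec_sum]; rfl)

/-- The terms of class `c`. -/
noncomputable def inCls (c : ℕ) (L : Lin ℚ) : Lin ℚ :=
  rfilter (fun p => Nat.beq (stCls p.2.1) c) L

theorem inCls_eq (c : ℕ) (L : Lin ℚ) : inCls c L = part cls c L := by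
  rw [inCls, rfilter_eq]
  refine List.filter_congr fun p _ => ?_
  rw [stCls_eq, Bool.eq_iff_iff, decide_eq_true_iff]
  exact ⟨Nat.eq_of_beq_eq_true, fun h => h ▸ Nat.beq_refl _⟩

/-- The target part, with the two-pair channels given. -/
noncomputable def targetPart (c : ℕ) (Z : ℕ → Comb ℚ) : Lin ℚ :=
  inCls c ([((parAt (0 : ℚ)).c * (2 - (parAt (0 : ℚ)).eps), (St.bh 0, St.bh 0))] ++
    ((rfilter (fun n => c == 2 * n + 1) tSet).flatMap fun n =>
      scale (-(parAt (0 : ℚ)).kap n)
        (cross (z1 (parAt (0 : ℚ)).eps n) (z1 (parAt (0 : ℚ)).eps n))) ++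
    ((rfilter (fun n => c == 2 * (n + 2) + 2) ySet).flatMap fun n =>
      scale ((parAt (0 : ℚ)).wy n) (cross (Z n) (Z n))))

theorem cls_z1 {R : Type*} [CommRing R] (e : R) (n : ℕ) :
    ∀ p ∈ z1 e n, cls (p.2, p.2) = 2 * n + 1 := by
  intro p hp
  simp only [z1, List.mem_map, List.mem_range] at hp
  obtain ⟨i, hi, rfl⟩ := hp
  simp only [cls]
  omega

theorem targetPart_eq (c : ℕ) (Z : ℕ → Comb ℚ)
    (hZ : ∀ n ∈ ySet, Z n = z2 (parAt (0 : ℚ)).eps n)
    (hy : ∀ n ∈ ySet, ∀ q ∈ Z n, cls (q.2, q.2) = 2 * (n + 2) + 2) :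
    targetPart c Z = part cls c (target (parAt (0 : ℚ))) := by
  rw [targetPart, inCls_eq]
  simp only [target, part_append]
  rw [part_flatMap_filter cls c (fun n => c == 2 * n + 1),
    part_flatMap_filter cls c (fun n => c == 2 * (n + 2) + 2)]
  · congr 1
    exact part_flatMap_congr cls c ySet fun n hn => by rw [hZ n hn]
  · intro n hn hg p hp e
    have hc := cls_cross_scale (fun q hq => hy n hn q hq) p hp
    simp_all
  · intro n _ hg p hp e
    have hc := cls_cross_scale (fun q hq => cls_z1 _ n q hq) p hp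
    simp_all

/-- `k!` by the recursor. -/
noncomputable def factR (k : ℕ) : ℕ :=
  Nat.rec (motive := fun _ => ℕ) 1 (fun i r => Nat.mul (Nat.add i 1) r) k

theorem nrm_one (a : ℕ) : Coef.nrm 1 (0 : ℚ) a = (factR a : ℚ) := by
  induction a with
  | zero => simp [Coef.nrm, factR]
  | succ a ih =>
    rw [Coef.nrm, Finset.prod_range_succ, ← Coef.nrm, ih,
      show factR (a + 1) = (a + 1) * factR a from rfl]
    simp [Coef.eCo]
    ring

/-- An integer as a fraction. -/
noncomputable def qInt (z : ℤ) : ℚ := mkRat z 1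

theorem qInt_eq (z : ℤ) : qInt z = z := by simp [qInt, Rat.mkRat_eq_div]

/-- Two rows at `eps = 0`, scaled. -/
noncomputable def pairF (x : ℚ) : Row → Row → Lin ℚ
  | .full k a b, .full l a' b' =>
    cond (Nat.beq a a') [(x * qInt (Int.ofNat (factR a)), (St.one k b, St.one l b'))] [] ++
      rflat (winKey (-1 : ℚ) k a' b) fun p =>
        rmap (fun q => (x * (p.1 * q.1), (p.2, q.2))) (winKey (1 : ℚ) l a b')
  | r, r' => scale x (rowPair (0 : ℚ) r r')

theorem pairF_eq (x : ℚ) (r r' : Row) : pairF x r r' = scale x (rowPair (0 : ℚ) r r') := by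
  cases r <;> cases r' <;> try rfl
  rename_i k a b l a' b'
  simp only [pairF, rowPair, rflat_eq, rmap_eq, cross, scale, List.map_append, List.map_flatMap,
    List.map_map, Function.comp_def, qInt_eq, nrm_one, Int.ofNat_eq_natCast, Int.cast_natCast]
  congr 1
  by_cases h : a = a'
  · subst h
    simp
  · have : Nat.beq a a' = false := by
      rw [Bool.eq_false_iff]
      exact fun e => h (Nat.eq_of_beq_eq_true e)
    simp [h, this]

/-- The classes two rows can reach. -/
noncomputable def mayPairF (c : ℕ) : Row → Row → Bool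
  | .full k _ b, .full _ a' _ =>
    Nat.beq c (Nat.add (Nat.mul 2 (Nat.add k b)) 1) ||
      Nat.beq c (Nat.add (Nat.mul 2 (Nat.add (Nat.add (Nat.add k a') b) 1)) 2)
  | r, r' => mayPair c r r'

theorem mayPairF_eq (c : ℕ) (r r' : Row) : mayPairF c r r' = mayPair c r r' := by
  cases r <;> cases r' <;> try rfl
  simp only [mayPairF, mayPair]
  congr 1 <;> rw [Bool.eq_iff_iff, beq_iff_eq] <;>
    exact ⟨Nat.eq_of_beq_eq_true, fun h => h ▸ Nat.beq_refl _⟩

/-- One Gram block in class `c`, negated. -/
noncomputable def blockF (c S : ℕ) (B : Block) : Lin ℚ :=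
  rflat (rfilter (fun p => mayRow c p.1) B) fun p =>
    rflat (rfilter (fun q => mayPairF c p.1 q.1) B) fun q =>
      pairF (mkRat (-dotR p.2.2 q.2.2) (Nat.mul (Nat.mul (Nat.mul S S) p.2.1) q.2.1)) p.1 q.1

/-- The Gram part. -/
noncomputable def blocksPart (c : ℕ) (d : Data) : Lin ℚ := inCls c (rflat d.blocks (blockF c d.S))

theorem blockF_eq (c S : ℕ) (B : Block) :
    blockF c S B = scale (-1) (blockLinAt c (0 : ℚ) S B) := by
  simp only [blockF, blockLinAt, rflat_eq, mayPairF_eq, pairF_eq]
  rw [show ∀ L : Lin ℚ, scale (-1) L = L.map fun p => ((-1) * p.1, p.2) from fun _ => rfl,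
    List.map_flatMap]
  refine List.flatMap_congr fun p _ => ?_
  rw [List.map_flatMap]
  refine List.flatMap_congr fun q _ => ?_
  rw [dotR_eq, Rat.mkRat_eq_div]
  simp only [scale, List.map_map, Function.comp_def, eq_ratCast, Rat.cast_id]
  refine List.map_congr_left fun x _ => Prod.ext ?_ rfl
  push_cast [Nat.mul_eq]
  ring

theorem blocksPart_eq (c : ℕ) (d : Data) :
    blocksPart c d = part cls c (scale (-1) (d.blocks.flatMap (blockLin (0 : ℚ) d.S))) := by
  rw [blocksPart, inCls_eq, rflat_eq]
  rw [show scale (-1 : ℚ) (d.blocks.flatMap (blockLin (0 : ℚ) d.S)) =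
      d.blocks.flatMap fun B => scale (-1) (blockLin (0 : ℚ) d.S B) by
    simp [scale, List.map_flatMap]]
  refine part_flatMap_congr cls c d.blocks fun B _ => ?_
  rw [blockF_eq, part_scale, part_scale, part_blockLinAt]

/-- The invariance part of pairs and particles. -/
noncomputable def g3Part (c : ℕ) (d : Data) : Lin ℚ :=
  inCls c (rflat (rfilter (tag3 c) d.g3) (gauge3 (0 : ℚ)))

theorem cls_gauge3 (c : ℕ) (d : (ℕ × ℕ × ℕ × ℕ) × ℚ) (h : tag3 c d = false) :
    ∀ p ∈ gauge3 (0 : ℚ) d, cls p.2 ≠ c := by
  obtain ⟨⟨k, a, l, b⟩, z⟩ := d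
  simp only [tag3, Bool.or_eq_false_iff, beq_eq_false_iff_ne] at h
  intro p hp
  simp only [gauge3, scale, List.mem_map, List.mem_append] at hp
  obtain ⟨q, hq, rfl⟩ := hp
  rcases hq with (hq | hq) | hq
  · split_ifs at hq <;> simp at hq
    subst hq
    simp [cls]
    omega
  · split_ifs at hq <;> simp at hq
    subst hq
    simp [cls]
    omega
  · simp at hq
    rcases hq with rfl | rfl <;> simp [cls] <;> omega

theorem g3Part_eq (c : ℕ) (d : Data) :
    g3Part c d = part cls c (d.g3.flatMap (gauge3 (0 : ℚ))) := by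
  rw [g3Part, inCls_eq, rflat_eq]
  exact part_flatMap_filter cls c (tag3 c) _ _ fun x _ hx => cls_gauge3 c x hx

/-- A word is strictly increasing. -/
noncomputable def strict (l : List ℕ) : Bool :=
  List.rec (motive := fun _ => Bool) true
    (fun a t r => List.rec (motive := fun _ => Bool) true (fun b _ _ => Nat.blt a b && r) t) l

theorem canon_strict : ∀ {l : List ℕ}, strict l = true → canon l = some (false, l) := by
  intro l
  induction l with
  | nil => intro _; rfl
  | cons a t ih =>
    intro h
    cases t with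
    | nil => rfl
    | cons b t =>
      change (Nat.blt a b && strict (b :: t)) = true at h
      rw [Bool.and_eq_true] at h
      rw [canon, ih h.2]
      have hab : a < b := Nat.blt_eq.mp h.1
      simp [ins, hab]

/-- A multiple of a word, sorted; quick when it is increasing. -/
noncomputable def wordF (c : ℚ) (l : List ℕ) : Comb ℚ :=
  cond (strict l) [(c, St.word l)] (wordComb c l)

theorem wordF_eq (c : ℚ) (l : List ℕ) : wordF c l = wordComb c l := by
  unfold wordF
  cases h : strict l with
  | false => rfl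
  | true => simp [wordComb, canon_strict h, sgn]

/-- Each entry of a word with the word lowered there. -/
noncomputable def downs (l : List ℕ) : List (ℕ × List ℕ) :=
  List.rec (motive := fun _ => List (ℕ × List ℕ)) []
    (fun a t r => (a, Nat.sub a 1 :: t) :: rmap (fun v => (v.1, a :: v.2)) r) l

theorem downs_eq (l : List ℕ) :
    downs l = (List.range l.length).map fun i => (l.getD i 0, l.set i (l.getD i 0 - 1)) := by
  induction l with
  | nil => rfl
  | cons a t ih =>
    change (a, Nat.sub a 1 :: t) :: rmap _ (downs t) = _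
    rw [rmap_eq, ih, List.length_cons, List.range_succ_eq_map, List.map_cons, List.map_map,
      List.map_map]
    rfl

/-- Each entry of a word raised. -/
noncomputable def ups (l : List ℕ) : List (List ℕ) :=
  List.rec (motive := fun _ => List (List ℕ)) []
    (fun a t r => (Nat.add a 1 :: t) :: rmap (fun v => a :: v) r) l

theorem ups_eq (l : List ℕ) :
    ups l = (List.range l.length).map fun i => l.set i (l.getD i 0 + 1) := by
  induction l with
  | nil => rfl
  | cons a t ih =>
    change (Nat.add a 1 :: t) :: rmap _ (ups t) = _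
    rw [rmap_eq, ih, List.length_cons, List.range_succ_eq_map, List.map_cons, List.map_map,
      List.map_map]
    rfl

/-- Invariance in four-particle space at `eps = 0`, times a multiplier. -/
noncomputable def gauge4F (d : (List ℕ × List ℕ) × ℚ) : Lin ℚ :=
  (rflat (downs d.1.1) fun v => cond (Nat.beq v.1 0) []
      (rmap (fun p : ℚ × St => (d.2 * p.1, (p.2, St.word d.1.2)))
        (wordF (qInt (Int.ofNat v.1)) v.2))) ++
    rflat (ups d.1.2) fun v =>
      rmap (fun p : ℚ × St => (-(d.2 * p.1), (St.word d.1.1, p.2))) (wordF 1 v)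

theorem eCo_one (a : ℕ) : Coef.eCo 1 (0 : ℚ) a = a := by simp [Coef.eCo]

theorem gauge4F_eq (d : (List ℕ × List ℕ) × ℚ) : gauge4F d = gauge4 (0 : ℚ) d := by
  obtain ⟨⟨I, J⟩, z⟩ := d
  simp only [gauge4F, gauge4, rflat_eq, rmap_eq, wordF_eq, downs_eq, ups_eq, List.flatMap_map,
    scale, cross, lowerWord, raiseWord, List.map_append, List.map_flatMap, List.flatMap_assoc,
    List.map_map, List.map_cons, List.map_nil, Function.comp_def,
    eCo_one, eq_ratCast, Rat.cast_id, qInt_eq, Int.ofNat_eq_natCast, Int.cast_natCast,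
    List.flatMap_cons, List.flatMap_nil, List.append_nil]
  congr 1
  · refine List.flatMap_congr fun i _ => ?_
    generalize I.getD i 0 = v
    by_cases h : v = 0
    · simp [h]
    · have : Nat.beq v 0 = false := by
        rw [Bool.eq_false_iff]
        exact fun e => h (Nat.eq_of_beq_eq_true e)
      simp [h, this, List.map_eq_flatMap]
  · refine List.flatMap_congr fun i _ => List.map_congr_left fun p _ => ?_
    simp

theorem ins_sum : ∀ {a : ℕ} {l : List ℕ} {q : Bool × List ℕ}, ins a l = some q →
    q.2.sum = a + l.sum := by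
  intro a l
  induction l with
  | nil => intro q h; simp [ins] at h; subst h; rfl
  | cons b t ih =>
    intro q h
    simp only [ins] at h
    split_ifs at h with h1 h2
    · simp at h
      subst h
      simp
    · simp only [Option.map_eq_some_iff] at h
      obtain ⟨p, hp, rfl⟩ := h
      simp only [List.sum_cons, ih hp]
      omega

theorem canon_sum : ∀ {l : List ℕ} {q : Bool × List ℕ}, canon l = some q → q.2.sum = l.sum := by
  intro l
  induction l with
  | nil => intro q h; simp [canon] at h; subst h; rfl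
  | cons a t ih =>
    intro q h
    simp only [canon, Option.bind_eq_some_iff, Option.map_eq_some_iff] at h
    obtain ⟨p, hp, r, hr, rfl⟩ := h
    simp only [List.sum_cons, ins_sum hr, ih hp]

theorem cls_wordComb {R : Type*} [CommRing R] (c : R) (l : List ℕ) :
    ∀ p ∈ wordComb c l, ∀ t, cls (p.2, t) = 2 * l.sum + 2 := by
  intro p hp t
  unfold wordComb at hp
  split at hp
  · simp at hp
  · rename_i q hq
    simp at hp
    subst hp
    simp [cls, canon_sum hq]

theorem sum_set_pred : ∀ (l : List ℕ) (i : ℕ), l.getD i 0 ≠ 0 →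
    (l.set i (l.getD i 0 - 1)).sum + 1 = l.sum := by
  intro l
  induction l with
  | nil => intro i h; simp at h
  | cons a t ih =>
    intro i h
    cases i with
    | zero => simp at h ⊢; omega
    | succ i =>
      simp at h ⊢
      have := ih i (by simpa using h)
      simp at this
      omega

/-- The classes a four-particle relation reaches. -/
theorem cls_gauge4 (x : (List ℕ × List ℕ) × ℚ) : ∀ p ∈ gauge4 (0 : ℚ) x,
    cls p.2 + 2 = 2 * x.1.1.sum + 2 ∨ cls p.2 = 2 * x.1.1.sum + 2 := by
  obtain ⟨⟨I, J⟩, z⟩ := x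
  intro p hp
  simp only [gauge4, scale, List.mem_map, List.mem_append, cross, List.mem_flatMap] at hp
  obtain ⟨a, ha | ha, rfl⟩ := hp
  · obtain ⟨b, hb, q, -, rfl⟩ := ha
    simp only [lowerWord, List.mem_flatMap] at hb
    obtain ⟨i, -, hb⟩ := hb
    split_ifs at hb with h
    · simp at hb
    · refine Or.inl ?_
      dsimp only
      rw [cls_wordComb _ _ b hb q.2]
      have := sum_set_pred I i h
      omega
  · obtain ⟨b, hb, q, -, rfl⟩ := ha
    simp only [List.mem_singleton] at hb
    subst hb
    exact Or.inr rfl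

/-- The weight of a four-particle relation fits the class. -/
noncomputable def tag4F (c : ℕ) (x : (List ℕ × List ℕ) × ℚ) : Bool :=
  (fun w => Nat.beq c (Nat.mul 2 w) || Nat.beq c (Nat.add (Nat.mul 2 w) 2))
    (List.rec (motive := fun _ => ℕ) 0 (fun a _ r => Nat.add a r) x.1.1)

/-- The invariance part of four particles. -/
noncomputable def g4Part (c : ℕ) (d : Data) : Lin ℚ :=
  inCls c (rflat (rfilter (tag4F c) d.g4) gauge4F)

theorem g4Part_eq (c : ℕ) (d : Data) :
    g4Part c d = part cls c (d.g4.flatMap (gauge4 (0 : ℚ))) := by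
  rw [g4Part, inCls_eq, rflat_eq, show gauge4F = gauge4 (0 : ℚ) from funext gauge4F_eq]
  refine part_flatMap_filter cls c (tag4F c) _ _ fun x _ hx p hp e => ?_
  simp only [tag4F, rec_sum, Bool.or_eq_false_iff] at hx
  rcases cls_gauge4 x p hp with h | h
  · refine Bool.eq_false_iff.1 hx.1 ?_
    rw [show c = Nat.mul 2 x.1.1.sum by change c = 2 * x.1.1.sum; omega]
    exact Nat.beq_refl _
  · refine Bool.eq_false_iff.1 hx.2 ?_
    rw [show c = Nat.add (Nat.mul 2 x.1.1.sum) 2 by change c = 2 * x.1.1.sum + 2; omega]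
    exact Nat.beq_refl _

/-- The vanishing channels. -/
noncomputable def nullPart (c : ℕ) (d : Data) : Lin ℚ :=
  inCls c (rflat d.null (nullLin (0 : ℚ)))

theorem nullPart_eq (c : ℕ) (d : Data) :
    nullPart c d = part cls c (d.null.flatMap (nullLin (0 : ℚ))) := by
  rw [nullPart, inCls_eq, rflat_eq]

/-- The residual class is the five parts. -/
theorem part_residual_parts (c : ℕ) (Z : ℕ → Comb ℚ) (d : Data)
    (hZ : ∀ n ∈ ySet, Z n = z2 (parAt (0 : ℚ)).eps n)
    (hy : ∀ n ∈ ySet, ∀ q ∈ Z n, cls (q.2, q.2) = 2 * (n + 2) + 2) :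
    part cls c (residual₀ d) =
      targetPart c Z ++ blocksPart c d ++ g3Part c d ++ g4Part c d ++ nullPart c d := by
  rw [targetPart_eq c Z hZ hy, blocksPart_eq, g3Part_eq, g4Part_eq, nullPart_eq, residual₀,
    residual]
  simp only [part_append]
  rfl

end Vale.Agent.P359.Moment.Tab
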