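import Vale.Agent.P359.Moment.Tab.Prog

/-!
A class of the residual is settled by integer tables of its coefficients at `eps = 0`: the tables
give the matrix `A + Tᵀ W T` of the block over one denominator, and its symmetric part is certified
positive definite by diagonal dominance.
-/

open Filter Finset RCLike
open scoped InnerProductSpace Topology

namespace Vale.Agent.P359.Moment.Tab

/-- The form `L` has the table `tbl` over `D` on the monomials `keys ++ srcs`, and no other term. -/
def Fact (keys srcs : List St) (L : Lin ℚ) (D : ℕ) (tbl : List (List ℤ)) : Prop :=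
  (∀ p ∈ L, (p.2.1 ∈ keys ∧ p.2.2 ∈ keys) ∨ (p.2.1 ∈ srcs ∧ p.2.2 ∈ srcs)) ∧
    ∀ i j (hi : i < (keys ++ srcs).length) (hj : j < (keys ++ srcs).length),
      coeffAt L (keys ++ srcs)[i] (keys ++ srcs)[j] = (ent tbl i j : ℚ) / D

theorem mem_of_get_left {keys srcs : List St} {i : ℕ} {x : St} {hi : i < (keys ++ srcs).length}
    (h : i < keys.length) (e : (keys ++ srcs)[i] = x) : x ∈ keys := by
  rw [List.getElem_append_left h] at e
  exact e ▸ List.getElem_mem h

theorem mem_of_get_right {keys srcs : List St} {i : ℕ} {x : St} {hi : i < (keys ++ srcs).length}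
    (h : keys.length ≤ i) (e : (keys ++ srcs)[i] = x) : x ∈ srcs := by
  rw [List.getElem_append_right h] at e
  exact e ▸ List.getElem_mem _

theorem sameB_eq {a b : Bool} : sameB a b = true ↔ a = b := by cases a <;> cases b <;> simp [sameB]

/-- A checked table is a fact. -/
theorem fact_of_tabOk {keys srcs : List St} {t : Ix} {D d : ℕ} {L : Lin ℚ} {tbl : List (List ℤ)}
    (hnd : (keys ++ srcs).Nodup) (hix : t.ok (keys ++ srcs) = true) (hD : D ≠ 0)
    (hd : (keys ++ srcs).length ≤ 2 ^ d)
    (h : tabOk D t d keys.length (keys ++ srcs).length L tbl = true) :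
    Fact keys srcs L D tbl := by
  simp only [tabOk, Bool.and_eq_true, decide_eq_true_eq] at h
  obtain ⟨hok, rfl⟩ := h
  rw [rall_iff] at hok
  simp only [encOk, Bool.and_eq_true, sameB_eq] at hok
  have hpos : ∀ p ∈ L, ∃ (_ : pos t (keys ++ srcs).length p.2.1 < (keys ++ srcs).length)
      (_ : pos t (keys ++ srcs).length p.2.2 < (keys ++ srcs).length),
      (keys ++ srcs)[pos t (keys ++ srcs).length p.2.1] = p.2.1 ∧ (keys ++ srcs)[pos t (keys ++ srcs).length p.2.2] = p.2.2 := by
    intro p hp
    obtain ⟨⟨⟨h1, h2⟩, -⟩, -⟩ := hok p hp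
    simp only [Nat.blt_eq] at h1 h2
    exact ⟨h1, h2, (List.getElem?_eq_some_iff.1 (pos_spec hix h1)).2,
      (List.getElem?_eq_some_iff.1 (pos_spec hix h2)).2⟩
  refine ⟨fun p hp => ?_, fun i j hi hj => ?_⟩
  · obtain ⟨h1, h2, e1, e2⟩ := hpos p hp
    obtain ⟨⟨-, hs⟩, -⟩ := hok p hp
    by_cases hk : pos t (keys ++ srcs).length p.2.1 < keys.length
    · have hk' : pos t (keys ++ srcs).length p.2.2 < keys.length := by
        rwa [← Nat.blt_eq, ← hs, Nat.blt_eq]
      refine Or.inl ⟨?_, ?_⟩
      · exact mem_of_get_left hk e1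
      · exact mem_of_get_left hk' e2
    · have hk' : ¬ pos t (keys ++ srcs).length p.2.2 < keys.length := by
        rwa [← Nat.blt_eq, ← hs, Nat.blt_eq]
      refine Or.inr ⟨?_, ?_⟩
      · exact mem_of_get_right (le_of_not_gt hk) e1
      · exact mem_of_get_right (le_of_not_gt hk') e2
  · rw [ent_tabOf hd hi hj, rmap_eq]
    induction L with
    | nil => simp [coeffAt]
    | cons p L ih =>
      have ih' := ih (fun q hq => hok q (by simp [hq])) fun q hq => hpos q (by simp [hq])
      obtain ⟨h1, h2, e1, e2⟩ := hpos p (by simp)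
      have hiff : p.2 = ((keys ++ srcs)[i], (keys ++ srcs)[j]) ↔
          pos t (keys ++ srcs).length p.2.1 = i ∧ pos t (keys ++ srcs).length p.2.2 = j := by
        constructor
        · intro e
          exact ⟨hnd.getElem_inj_iff.1 (e1.trans (congrArg Prod.fst e)),
            hnd.getElem_inj_iff.1 (e2.trans (congrArg Prod.snd e))⟩
        · rintro ⟨rfl, rfl⟩
          exact Prod.ext e1.symm e2.symm
      rw [coeffAt_cons, ih']
      have hdvd : p.1.den ∣ D := Nat.dvd_of_mod_eq_zero (Nat.eq_of_beq_eq_true (hok p (by simp)).2)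
      obtain ⟨k, hk⟩ := hdvd
      have hval : ((encVal D t (keys ++ srcs).length p).1 : ℚ) / D = p.1 := by
        have hden : (p.1.den : ℚ) ≠ 0 := by exact_mod_cast p.1.den_nz
        have hdiv : Nat.div D p.1.den = k := by
          change D / p.1.den = k
          rw [hk, Nat.mul_div_cancel_left _ p.1.den_pos]
        have hk0 : (k : ℚ) ≠ 0 := by
          have : k ≠ 0 := fun e => hD (by rw [hk, e, Nat.mul_zero])
          exact_mod_cast this
        simp only [encVal, hdiv, Int.ofNat_eq_natCast]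
        rw [hk]
        push_cast
        rw [mul_div_mul_right _ _ hk0, Rat.num_div_den]
      rw [List.map_cons, List.filter_cons]
      by_cases hh : p.2 = ((keys ++ srcs)[i], (keys ++ srcs)[j])
      · have hh' : (encVal D t (keys ++ srcs).length p).2.1 = i ∧ (encVal D t (keys ++ srcs).length p).2.2 = j :=
          hiff.1 hh
        rw [if_pos hh, if_pos (decide_eq_true hh'), List.map_cons, List.sum_cons, Int.cast_add,
          add_div, hval]
      · have hh' : ¬ ((encVal D t (keys ++ srcs).length p).2.1 = i ∧ (encVal D t (keys ++ srcs).length p).2.2 = j) :=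
          fun e => hh (hiff.2 e)
        rw [if_neg hh, if_neg (by simpa using hh'), zero_add]

/-- Two facts give one for the joined form. -/
theorem Fact.append {keys srcs : List St} {L₁ L₂ : Lin ℚ} {D₁ D₂ D : ℕ} {e₁ e₂ : ℕ}
    {t₁ t₂ : List (List ℤ)} (h₁ : Fact keys srcs L₁ D₁ t₁) (h₂ : Fact keys srcs L₂ D₂ t₂)
    (he₁ : e₁ * D₁ = D) (he₂ : e₂ * D₂ = D) (hD : D ≠ 0) :
    Fact keys srcs (L₁ ++ L₂) D (madd (mscale e₁ t₁) (mscale e₂ t₂)) := by
  refine ⟨fun p hp => ?_, fun i j hi hj => ?_⟩
  · rcases List.mem_append.1 hp with h | h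
    · exact h₁.1 p h
    · exact h₂.1 p h
  · have hs : coeffAt (L₁ ++ L₂) (keys ++ srcs)[i] (keys ++ srcs)[j] =
        coeffAt L₁ (keys ++ srcs)[i] (keys ++ srcs)[j] +
          coeffAt L₂ (keys ++ srcs)[i] (keys ++ srcs)[j] := by
      simp [coeffAt, List.filter_append]
    have f1 : (D₁ : ℚ) ≠ 0 := by
      have : D₁ ≠ 0 := fun e => hD (by rw [← he₁, e, Nat.mul_zero])
      exact_mod_cast this
    have f2 : (D₂ : ℚ) ≠ 0 := by
      have : D₂ ≠ 0 := fun e => hD (by rw [← he₂, e, Nat.mul_zero])
      exact_mod_cast this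
    have g : (D : ℚ) ≠ 0 := by exact_mod_cast hD
    have c1 : (e₁ : ℚ) * D₁ = D := by exact_mod_cast he₁
    have c2 : (e₂ : ℚ) * D₂ = D := by exact_mod_cast he₂
    rw [hs, h₁.2 i j hi hj, h₂.2 i j hi hj, ent_madd, ent_mscale, ent_mscale]
    push_cast
    field_simp
    linear_combination (ent t₁ i j : ℚ) * D₂ * c1 * (-1) + (ent t₂ i j : ℚ) * D₁ * c2 * (-1)

/-- The expansions of the expanded monomials as an integer table. -/
noncomputable def combRow (t : Ix) (d n N : ℕ) (A : Comb ℚ) : List ℤ :=
  rmap (fun cell => isum (rmap (fun p : ℚ × St => p.1.num) cell))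
    (List.take n (bucket (fun p => pos t N p.2) d 0 A))

/-- The expansions fit the table. -/
noncomputable def combOk (t : Ix) (d n N : ℕ) (X : St → Comb ℚ) (srcs : List St)
    (T : List (List ℤ)) : Bool :=
  rall (fun s => rall (fun p => Nat.blt (pos t N p.2) n && Nat.beq p.1.den 1) (X s)) srcs &&
    decide (rmap (fun s => combRow t d n N (X s)) srcs = T)

theorem comb_sound {keys srcs : List St} {t : Ix} {d : ℕ} {X : St → Comb ℚ} {T : List (List ℤ)}
    (hnd : (keys ++ srcs).Nodup) (hix : t.ok (keys ++ srcs) = true)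
    (hd : (keys ++ srcs).length ≤ 2 ^ d)
    (h : combOk t d keys.length (keys ++ srcs).length X srcs T = true) :
    (∀ s ∈ srcs, ∀ p ∈ X s, p.2 ∈ keys) ∧
      ∀ p (hp : p < srcs.length) j (hj : j < keys.length),
        combAt (X srcs[p]) keys[j] = (ent T p j : ℚ) := by
  simp only [combOk, Bool.and_eq_true, decide_eq_true_eq] at h
  obtain ⟨hok, rfl⟩ := h
  simp only [rall_iff, Bool.and_eq_true, Nat.blt_eq] at hok
  have hlen : keys.length ≤ (keys ++ srcs).length := by simp
  have hpos : ∀ s ∈ srcs, ∀ p ∈ X s, ∃ h : pos t (keys ++ srcs).length p.2 < keys.length,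
      keys[pos t (keys ++ srcs).length p.2] = p.2 := by
    intro s hs p hp
    have h1 := (hok s hs p hp).1
    refine ⟨h1, ?_⟩
    have e := (List.getElem?_eq_some_iff.1 (pos_spec hix (h1.trans_le hlen))).2
    rw [List.getElem_append_left h1] at e
    exact e
  refine ⟨fun s hs p hp => ?_, fun q hq j hj => ?_⟩
  · obtain ⟨h1, e1⟩ := hpos s hs p hp
    rw [← e1]
    exact List.getElem_mem h1
  · have hj2 : j < 2 ^ d := (hj.trans_le hlen).trans_le hd
    have hs := List.getElem_mem hq
    simp only [ent, rmap_eq, combRow, isum_eq, bucket_eq, List.getD_eq_getElem?_getD,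
      List.getElem?_map, List.getElem?_eq_getElem hq, Option.map_some, Option.getD_some,
      List.getElem?_take, if_pos hj, List.getElem?_range hj2, Nat.zero_add]
    generalize hA : X srcs[q] = A
    have hA' : ∀ p ∈ A, ∃ h : pos t (keys ++ srcs).length p.2 < keys.length,
        keys[pos t (keys ++ srcs).length p.2] = p.2 := fun p hp => hpos _ hs p (hA ▸ hp)
    have hA2 : ∀ p ∈ A, p.1.den = 1 := fun p hp =>
      Nat.eq_of_beq_eq_true ((hok _ hs p (hA ▸ hp)).2)
    clear hA
    induction A with
    | nil => simp [combAt]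
    | cons p A ih =>
      obtain ⟨h1, e1⟩ := hA' p (by simp)
      have hiff : p.2 = keys[j] ↔ pos t (keys ++ srcs).length p.2 = j := by
        constructor
        · intro e
          exact (List.nodup_append.1 hnd).1.getElem_inj_iff.1 (e1.trans e)
        · rintro rfl
          exact e1.symm
      have ih' := ih (fun x hx => hA' x (by simp [hx])) fun x hx => hA2 x (by simp [hx])
      have hval : (p.1.num : ℚ) = p.1 := Rat.den_eq_one_iff _ |>.1 (hA2 p (by simp))
      rw [show combAt (p :: A) keys[j] = (if p.2 = keys[j] then p.1 else 0) + combAt A keys[j] by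
          by_cases hh : p.2 = keys[j] <;> simp [combAt, hh], ih', List.filter_cons]
      by_cases hh : p.2 = keys[j]
      · rw [if_pos hh, if_pos (decide_eq_true (hiff.1 hh)), List.map_cons, List.sum_cons,
          Int.cast_add, hval]
      · rw [if_neg hh, if_neg (by simpa using fun e => hh (hiff.2 e)), zero_add]

/-- The kept part of a table. -/
noncomputable def keptPart (n : ℕ) (A : List (List ℤ)) : List (List ℤ) :=
  rmap (List.take n) (List.take n A)

/-- The expanded part of a table. -/
noncomputable def expPart (n : ℕ) (A : List (List ℤ)) : List (List ℤ) :=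
  rmap (List.drop n) (List.drop n A)

/-- The matrix `A + Tᵀ W T`. -/
noncomputable def blockMat (n : ℕ) (A T : List (List ℤ)) : List (List ℤ) :=
  madd (keptPart n A) (mmul (transp T) (mmul (expPart n A) T))

/-- The sum of a table and its transpose. -/
noncomputable def symT (M : List (List ℤ)) : List (List ℤ) := madd M (transp M)

/-- The entry of the dominance test. -/
noncomputable def rEntry (dw : List ℤ) (B : List (List ℤ)) (K : ℕ) (S : List (List ℤ))
    (i j : ℕ) : ℤ :=
  dw.getD i 0 * ent S i j * dw.getD j 0 - Int.ofNat K * dotR (B.getD i []) (B.getD j [])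

/-- Diagonal dominance of the weighted symmetric part less `K B Bᵀ`. -/
noncomputable def domOk (n : ℕ) (dw : List ℤ) (B : List (List ℤ)) (K : ℕ)
    (S : List (List ℤ)) : Bool :=
  rall (fun i => decide (0 < dw.getD i 0) &&
    decide (isum (rmap (fun j => if j = i then 0 else |rEntry dw B K S i j|) (List.range n)) <
      rEntry dw B K S i i)) (List.range n)

/-- The final test of a block. -/
noncomputable def pdTest (n m : ℕ) (dw : List ℤ) (B : List (List ℤ)) (D : ℕ)
    (A T : List (List ℤ)) : Bool :=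
  rall (fun w => Nat.ble w.length m) (expPart n A) &&
    rall (fun w => Nat.ble w.length m) (transp T) &&
    domOk n dw B (Nat.mul 2 D) (symT (blockMat n A T))

theorem ent_blockMat {n m : ℕ} {A T : List (List ℤ)} (hA : ∀ w ∈ expPart n A, w.length ≤ m)
    (hT : ∀ w ∈ transp T, w.length ≤ m) {i j : ℕ} (hi : i < n) (hj : j < n) :
    ent (blockMat n A T) i j = ent A i j + ∑ p ∈ Finset.range m,
      ent T p i * ∑ q ∈ Finset.range m, ent A (n + p) (n + q) * ent T q j := by
  rw [blockMat, ent_madd, ent_mmul _ _ i j m hT]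
  congr 1
  · simp only [ent, keptPart, rmap_eq, List.getD_eq_getElem?_getD, List.getElem?_map,
      List.getElem?_take, if_pos hi]
    cases A[i]? <;> simp [hj]
  · refine Finset.sum_congr rfl fun p _ => ?_
    rw [ent_transp, ent_mmul _ _ p j m hA]
    congr 1
    refine Finset.sum_congr rfl fun q _ => ?_
    congr 1
    simp only [ent, expPart, rmap_eq, List.getD_eq_getElem?_getD, List.getElem?_map,
      List.getElem?_drop]
    cases A[n + p]? <;> simp [List.getElem?_drop]

theorem psd_dot_comm (a b : List ℤ) : Psd.dot a b = Psd.dot b a := by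
  rw [Psd.dot_eq (a.length + b.length) a b (by omega),
    Psd.dot_eq (a.length + b.length) b a (by omega)]
  exact Finset.sum_congr rfl fun k _ => mul_comm _ _

theorem rEntry_comm {dw : List ℤ} {B : List (List ℤ)} {K : ℕ} {M : List (List ℤ)} (i j : ℕ) :
    rEntry dw B K (symT M) i j = rEntry dw B K (symT M) j i := by
  simp only [rEntry, symT, ent_madd, ent_transp, dotR_eq, psd_dot_comm (B.getD i []) (B.getD j [])]
  ring

/-- The dominance test gives a certificate for the weighted symmetric part over `K`. -/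
theorem cert_of_domOk {n K : ℕ} {dw : List ℤ} {B : List (List ℤ)} {M : List (List ℤ)}
    (hK : 0 < K) (h : domOk n dw B K (symT M) = true) :
    (∀ i : Fin n, (0 : ℝ) < (dw.getD i 0 : ℤ)) ∧
    ∃ (m : ℕ) (B' : Fin n → Fin m → ℝ), Psd.Cert (fun i j : Fin n => ((dw.getD i 0 : ℤ) : ℝ) *
      ((ent (symT M) i j : ℤ) : ℝ) / K * (dw.getD j 0 : ℤ)) B' := by
  simp only [domOk, rall_iff, Bool.and_eq_true, decide_eq_true_eq, List.mem_range, isum_eq,
    rmap_eq] at h
  refine ⟨fun i => by exact_mod_cast (h i i.2).1, (B.map List.length).sum,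
    fun i k => ((B.getD i []).getD k 0 : ℤ), fun i => ?_⟩
  have hK' : (0 : ℝ) < (K : ℝ) := by exact_mod_cast hK
  have hr : ∀ a b : Fin n, ((dw.getD a 0 : ℤ) : ℝ) * ((ent (symT M) a b : ℤ) : ℝ) / K *
      (dw.getD b 0 : ℤ) - ∑ k : Fin (B.map List.length).sum,
        (((B.getD a []).getD k 0 : ℤ) : ℝ) * ((B.getD b []).getD k 0 : ℤ) =
      ((rEntry dw B K (symT M) a b : ℤ) : ℝ) / K := by
    intro a b
    rw [rEntry, dotR_eq, Psd.dot_eq _ _ _ (Psd.length_getD_le B a), Int.ofNat_eq_natCast]
    push_cast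
    field_simp
  have hrow := (h i i.2).2
  rw [← List.sum_toFinset _ List.nodup_range, List.toFinset_range] at hrow
  have hsum : ∑ j ∈ univ.erase i, (|rEntry dw B K (symT M) i j| + |rEntry dw B K (symT M) j i|) <
      2 * rEntry dw B K (symT M) i i := by
    have : ∑ j ∈ univ.erase i, |rEntry dw B K (symT M) i j| < rEntry dw B K (symT M) i i := by
      refine lt_of_eq_of_lt ?_ hrow
      rw [← Fin.sum_univ_eq_sum_range
        (fun j => if j = (i : ℕ) then 0 else |rEntry dw B K (symT M) i j|)]
      rw [← add_sum_erase _ _ (mem_univ i), if_pos rfl, zero_add]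
      exact sum_congr rfl fun j hj => by rw [if_neg fun e => (mem_erase.1 hj).1 (Fin.ext e)]
    simp only [fun j : Fin n => (rEntry_comm (dw := dw) (B := B) (K := K) (M := M) i j).symm,
      ← two_mul, ← mul_sum]
    linarith
  simp only [hr, abs_div, abs_of_pos hK', ← add_div, ← sum_div]
  rw [← mul_div_assoc, div_lt_div_iff_of_pos_right hK']
  exact_mod_cast hsum

/-- A form with a certificate at the limit is eventually nonnegative on every system. -/
theorem eventually_ev_nonneg {keys srcs : List St} {L : ℝ → Lin ℝ} {L₀ : Lin ℚ}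
    {X : ℝ → St → Comb ℝ} {X₀ : St → Comb ℚ} {w : Fin keys.length → ℝ}
    (hn : (keys ++ srcs).Nodup) (hLk : ∀ e, (L e).map Prod.snd = L₀.map Prod.snd)
    (hXk : ∀ e, ∀ s ∈ srcs, (X e s).map Prod.snd = (X₀ s).map Prod.snd)
    (hLc : ∀ s t, Tendsto (fun e => coeffAt (L e) s t) (𝓝 0) (𝓝 ((coeffAt L₀ s t : ℚ) : ℝ)))
    (hXc : ∀ s ∈ srcs, ∀ t, Tendsto (fun e => combAt (X e s) t) (𝓝 0)
      (𝓝 ((combAt (X₀ s) t : ℚ) : ℝ)))
    (hLm : ∀ p ∈ L₀, (p.2.1 ∈ keys ∧ p.2.2 ∈ keys) ∨ (p.2.1 ∈ srcs ∧ p.2.2 ∈ srcs))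
    (hXm : ∀ s ∈ srcs, ∀ p ∈ X₀ s, p.2 ∈ keys) (hw : ∀ i, w i ≠ 0)
    {m : ℕ} {B' : Fin keys.length → Fin m → ℝ}
    (hB : Psd.Cert (fun i j => w i * (((blockEntry L₀ X₀ keys srcs i j +
      blockEntry L₀ X₀ keys srcs j i) / 2 : ℚ) : ℝ) * w j) B') :
    ∀ᶠ e in 𝓝 (0 : ℝ), ∀ (E : Type) [NormedAddCommGroup E] [InnerProductSpace ℂ E]
      (ι : Type) [Fintype ι] (S : Sys e E ι),
      (∀ s ∈ srcs, S.op s = S.comb (X e s)) → 0 ≤ S.ev (L e) := by
  have hlim : ∀ i j : Fin keys.length, Tendsto (fun e => w i *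
      ((blockEntry (L e) (X e) keys srcs i j + blockEntry (L e) (X e) keys srcs j i) / 2) * w j)
      (𝓝 0) (𝓝 (w i * (((blockEntry L₀ X₀ keys srcs i j +
        blockEntry L₀ X₀ keys srcs j i) / 2 : ℚ) : ℝ) * w j)) := by
    intro i j
    refine (tendsto_const_nhds.mul ?_).mul tendsto_const_nhds
    simp only [blockEntry, Rat.cast_add, Rat.cast_div, Rat.cast_ofNat, Rat.cast_sum, Rat.cast_mul]
    refine Tendsto.div_const (Tendsto.add ?_ ?_) 2 <;>
      exact (hLc _ _).add (tendsto_finsetSum _ fun p _ => (hXc _ (List.getElem_mem p.2) _).mul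
        (tendsto_finsetSum _ fun q _ => (hLc _ _).mul (hXc _ (List.getElem_mem q.2) _)))
  filter_upwards [hB.eventually hlim] with e he
  intro E _ _ ι _ S hop
  have hL : ∀ p ∈ L e, (p.2.1 ∈ keys ∧ p.2.2 ∈ keys) ∨ (p.2.1 ∈ srcs ∧ p.2.2 ∈ srcs) := by
    intro p hp
    obtain ⟨q, hq, e'⟩ := List.mem_map.1 (hLk e ▸ List.mem_map_of_mem hp)
    exact e' ▸ hLm q hq
  have hX : ∀ s ∈ srcs, ∀ p ∈ X e s, p.2 ∈ keys := by
    intro s hs p hp
    obtain ⟨q, hq, e'⟩ := List.mem_map.1 (hXk e s hs ▸ List.mem_map_of_mem hp)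
    exact e' ▸ hXm s hs q hq
  rw [S.ev_eq_block hn (L e) (X e) hL hX hop]
  simp only [Sys.val, pform, Slack.pform, map_sum, mul_sum]
  rw [Finset.sum_congr rfl fun i _ => Finset.sum_comm, Finset.sum_comm]
  refine sum_nonneg fun c _ => ?_
  have hf := he.form_nonneg (𝕜 := ℂ) fun i => (((w i)⁻¹ : ℝ) : ℂ) • S.op keys[(i : ℕ)] (S.χ c)
  have hsym : ∀ (f g : Fin keys.length → Fin keys.length → ℝ), (∀ i j, g i j = g j i) →
      ∑ i, ∑ j, (f i j + f j i) / 2 * g i j = ∑ i, ∑ j, f i j * g i j := by
    intro f g hg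
    have h2 : ∑ i, ∑ j, f j i * g i j = ∑ i, ∑ j, f i j * g i j := by
      rw [Finset.sum_comm]
      exact sum_congr rfl fun i _ => sum_congr rfl fun j _ => by rw [hg j i]
    simp only [add_div, add_mul, sum_add_distrib, div_mul_eq_mul_div, ← sum_div, h2]
    ring
  refine le_trans hf (le_of_eq ?_)
  refine Eq.trans (sum_congr rfl fun i _ => sum_congr rfl fun j _ => ?_)
    (hsym _ (fun i j => re ⟪S.op keys[(i : ℕ)] (S.χ c), S.op keys[(j : ℕ)] (S.χ c)⟫_ℂ)
      fun i j => inner_re_symm _ _)
  simp only [inner_smul_left, inner_smul_right, RCLike.re_to_complex, Complex.conj_ofReal,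
    Complex.re_ofReal_mul]
  have := hw i
  have := hw j
  field_simp

/-- Tables settle their class. -/
theorem classGoal {keys srcs : List St} (t : Ix) (depth : ℕ) (data : Data) (c D : ℕ)
    (A T : List (List ℤ)) (dw : List ℤ) (B : List (List ℤ))
    (hwins : (srcs.all fun s => match s with | .win _ _ _ => true | _ => false) = true)
    (hnd : (keys ++ srcs).Nodup) (hix : t.ok (keys ++ srcs) = true)
    (hd : (keys ++ srcs).length ≤ 2 ^ depth) (hD : D ≠ 0)
    (hA : Fact keys srcs (part cls c (residual₀ data)) D A)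
    (hT : combOk t depth keys.length (keys ++ srcs).length (expand (0 : ℚ)) srcs T = true)
    (hpd : pdTest keys.length srcs.length dw B D A T = true) : ClassGoal data c := by
  have hwin : ∀ s ∈ srcs, ∃ k a a', s = St.win k a a' := by
    intro s hs
    have := List.all_eq_true.1 hwins s hs
    cases s <;> simp_all
  obtain ⟨hXm, hTc⟩ := comb_sound hnd hix hd hT
  simp only [pdTest, Bool.and_eq_true, rall_iff, Nat.ble_eq] at hpd
  obtain ⟨⟨hlA, hlT⟩, hdom⟩ := hpd
  obtain ⟨hw, m, B', hB⟩ := cert_of_domOk (K := Nat.mul 2 D) (by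
    change 0 < 2 * D; omega) hdom
  have hentry : ∀ i j : Fin keys.length,
      blockEntry (part cls c (residual₀ data)) (expand (0 : ℚ)) keys srcs i j =
        (ent (blockMat keys.length A T) i j : ℚ) / D := by
    intro i j
    have ei : ∀ i : Fin keys.length, (keys ++ srcs)[(i : ℕ)]'(by simp; omega) = keys[(i : ℕ)] :=
      fun i => List.getElem_append_left i.2
    have ep : ∀ p : Fin srcs.length,
        (keys ++ srcs)[keys.length + (p : ℕ)]'(by simp) = srcs[(p : ℕ)] := fun p => by
      rw [List.getElem_append_right (by omega)]; simp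
    rw [ent_blockMat hlA hlT i.2 j.2, blockEntry, ← ei i, ← ei j,
      hA.2 i j (by simp; omega) (by simp; omega), Int.cast_add, add_div, ei i, ei j]
    congr 1
    rw [← Fin.sum_univ_eq_sum_range (fun p => ent T p i *
      ∑ q ∈ Finset.range srcs.length, ent A (keys.length + p) (keys.length + q) * ent T q j)]
    push_cast
    rw [sum_div]
    refine sum_congr rfl fun p _ => ?_
    rw [hTc p p.2 i i.2, mul_div_assoc]
    congr 1
    rw [← Fin.sum_univ_eq_sum_range (fun q =>
      ((ent A (keys.length + p) (keys.length + q) : ℚ) * (ent T q j : ℚ))), sum_div]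
    refine sum_congr rfl fun q _ => ?_
    rw [hTc q q.2 j j.2, ← ep p, ← ep q, hA.2 _ _ (by simp) (by simp), div_mul_eq_mul_div]
  have h := eventually_ev_nonneg (keys := keys) (srcs := srcs)
    (L := fun e => part cls c (residual (parAt e) data)) (X := fun e => expand e)
    (X₀ := expand (0 : ℚ)) (L₀ := part cls c (residual₀ data)) (w := fun i => ((dw.getD i 0 : ℤ) : ℝ)) hnd
    (fun e => part_keys cls c (residual_keys (parAt e) (parAt 0) data))
    (fun e s hs => by
      obtain ⟨k, a, a', rfl⟩ := hwin s hs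
      exact winComb_keys e 0 k a a')
    (fun s t => by
      simp only [coeffAt_part, residual₀]
      split_ifs
      · exact tendsto_coeffAt_residual data s t
      · simp)
    (fun s hs t => by
      obtain ⟨k, a, a', rfl⟩ := hwin s hs
      exact tendsto_combAt_winComb k a a' t)
    hA.1 hXm (fun i => (hw i).ne') (m := m) (B' := B') (by
      have e : (fun i j : Fin keys.length => ((dw.getD i 0 : ℤ) : ℝ) *
          (((blockEntry (part cls c (residual₀ data)) (expand (0 : ℚ)) keys srcs i j +
            blockEntry (part cls c (residual₀ data)) (expand (0 : ℚ)) keys srcs j i) / 2 : ℚ) : ℝ) *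
              (dw.getD j 0 : ℤ)) =
          fun i j : Fin keys.length => ((dw.getD i 0 : ℤ) : ℝ) *
            ((ent (symT (blockMat keys.length A T)) i j : ℤ) : ℝ) / (Nat.mul 2 D : ℕ) *
              (dw.getD j 0 : ℤ) := by
        funext i j
        have hD' : (D : ℝ) ≠ 0 := by exact_mod_cast hD
        rw [hentry i j, hentry j i, symT, ent_madd, ent_transp,
          show Nat.mul 2 D = 2 * D from rfl]
        push_cast
        field_simp
      rw [e]
      exact hB)
  refine h.mono fun e he E _ _ ι _ S => he E ι S fun s hs => ?_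
  obtain ⟨k, a, a', rfl⟩ := hwin s hs
  exact (S.comb_winComb k a a').symm

end Vale.Agent.P359.Moment.Tab
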